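import Vale.Agent.P263.G.Zig
import Vale.Agent.P263.T0.Dual
import Vale.Agent.P263.T0.Defs

/-!
# P263, block G: Mathlib simplicial sets and singular homology versus function cochains

`ofSSet X` : the hand-rolled simplicial set of a Mathlib simplicial set, `sing T` : the singular
simplices of a space.  Mathlib's `H_n(f)` (coefficients `𝔽₂`) surjective / injective iff `H^n(f)`
(function cochains) injective / surjective.
-/

open CategoryTheory Simplicial

namespace Vale.Agent.P263.G

open Vale.Agent.P263.S Vale.Agent.P263.E Vale.Agent.P263.T0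

/-- the morphism of `SimplexCategory` of a monotone map -/
abbrev hm {p q : ℕ} (φ : Op p q) : SimplexCategory.mk p ⟶ SimplexCategory.mk q :=
  SimplexCategory.mkHom φ

/-- the hand-rolled simplicial set of a Mathlib simplicial set -/
def ofSSet (X : SSet.{0}) : SS where
  obj p := X _⦋p⦌
  map φ x := X.map (hm φ).op x
  map_id {p} x := by
    have : hm (OrderHom.id : Op p p) = 𝟙 _ := rfl
    rw [this]
    simp
  map_comp φ ψ x := by
    have : hm (φ.comp ψ) = hm ψ ≫ hm φ := rfl
    rw [this]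
    simp

/-- the map of hand-rolled simplicial sets -/
def ofSSetMap {X Y : SSet.{0}} (f : X ⟶ Y) : SS.Map (ofSSet X) (ofSSet Y) where
  app x := f.app _ x
  nat φ x := ConcreteCategory.congr_hom (f.naturality (hm φ).op) x

/-- the singular simplices of a space -/
noncomputable def sing (T : TopCat.{0}) : SS := ofSSet (TopCat.toSSet.obj T)

/-- the map of singular simplices of a continuous map -/
noncomputable def singMap {S T : TopCat.{0}} (f : S ⟶ T) : SS.Map (sing S) (sing T) :=
  ofSSetMap (TopCat.toSSet.map f)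

theorem singMap_comp {S T U : TopCat.{0}} (f : S ⟶ T) (g : T ⟶ U) :
    singMap (f ≫ g) = (singMap g).comp (singMap f) := by
  ext p x
  show (TopCat.toSSet.map (f ≫ g)).app _ x = _
  rw [Functor.map_comp]
  rfl

theorem dl_eq_δ (n : ℕ) (i : Fin (n + 2)) : hm (dl n i) = SimplexCategory.δ i := by
  apply SimplexCategory.Hom.ext
  apply OrderHom.ext
  funext x
  apply Fin.ext
  show (if x.1 < i.1 then x.1 else x.1 + 1) = (Fin.succAbove i x).1
  rw [Fin.succAbove]
  simp only [Fin.lt_def, Fin.val_castSucc]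
  split_ifs <;> rfl

variable (X : SSet.{0}) {Y : SSet.{0}} (f : X ⟶ Y)

theorem sn_two (i : ℕ) (a : ZMod 2) : sn i a = a := by
  have h1 : ∀ b : ZMod 2, -b = b := by decide
  induction i with
  | zero => simp [sn]
  | succ i ih => rw [sn_succ, ih, h1]

/-- the two coboundaries agree -/
theorem d_eq_cobd {n : ℕ} (c : (SS.F (ZMod 2) (ofSSet X)).obj n) :
    (SS.F (ZMod 2) (ofSSet X)).d n c = cobd X c := by
  funext x
  show _ = ∑ i : Fin (n + 2), c (X.δ i x)
  rw [SS.F_d, Finset.sum_range]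
  refine Finset.sum_congr rfl fun i _ => ?_
  rw [sn_two]
  show c (X.map (hm (dl n i)).op x) = c (X.map (SimplexCategory.δ i).op x)
  rw [dl_eq_δ]

theorem isCobd_iff {n : ℕ} (c : X _⦋n⦌ → ZMod 2) :
    IsCobd X c ↔ (show (SS.F (ZMod 2) (ofSSet X)).obj n from c) ∈
      (SS.F (ZMod 2) (ofSSet X)).Bd n := by
  cases n with
  | zero => exact Iff.rfl
  | succ n =>
    constructor
    · rintro ⟨b, rfl⟩
      exact ⟨b, d_eq_cobd X b⟩
    · rintro ⟨b, hb⟩
      exact ⟨b, (hb.symm.trans (d_eq_cobd X b))⟩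

theorem isCobd_add_iff {n : ℕ} (c : X _⦋n⦌ → ZMod 2) (c' : Y _⦋n⦌ → ZMod 2) :
    IsCobd X (c + T0.pull f c') ↔ (show (SS.F (ZMod 2) (ofSSet X)).obj n from c) -
      ((ofSSetMap f).pull (R := ZMod 2)).app n c' ∈ (SS.F (ZMod 2) (ofSSet X)).Bd n := by
  have e : c + T0.pull f c' = c - T0.pull f c' := by
    funext x
    exact (CharTwo.sub_eq_add _ _).symm
  rw [e, isCobd_iff]
  exact Iff.rfl

/-- **Mathlib homology versus function cochains, in a range.** -/
theorem isoUpTo_ofSSetMap_iff (D : ℕ) : IsoUpTo (ZMod 2) D (ofSSetMap f) ↔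
    (∀ n ≤ D, Function.Surjective (SSet.homologyMap f RF2 n).hom) ∧
      ∀ n < D, Function.Injective (SSet.homologyMap f RF2 n).hom := by
  constructor
  · intro h
    refine ⟨fun n hn => ?_, fun n hn => ?_⟩
    · rw [homologyMap_surjective_iff]
      intro c hc h1
      rw [isCobd_iff] at h1 ⊢
      exact h.inj hn c ((d_eq_cobd Y c).trans hc) h1
    · rw [homologyMap_injective_iff]
      intro c hc
      obtain ⟨c', hc', h1⟩ := h.surj hn c ((d_eq_cobd X c).trans hc)
      refine ⟨c', (d_eq_cobd Y c').symm.trans hc', ?_⟩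
      exact (isCobd_add_iff X f c c').2 h1
  · rintro ⟨h1, h2⟩
    refine IsoUpTo.of_elem (fun n hn y hy h => ?_) (fun n hn c hc => ?_)
    · have := (homologyMap_surjective_iff X f n).1 (h1 n hn) y ((d_eq_cobd Y y).symm.trans hy)
        ((isCobd_iff X _).2 h)
      exact (isCobd_iff Y y).1 this
    · obtain ⟨c', hc', h3⟩ := (homologyMap_injective_iff X f n).1 (h2 n hn) c
        ((d_eq_cobd X c).symm.trans hc)
      exact ⟨c', (d_eq_cobd Y c').trans hc', (isCobd_add_iff X f c c').1 h3⟩

/-- **Singular homology versus function cochains, in a range.** -/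
theorem isoUpTo_singMap_iff (D : ℕ) {S T : TopCat.{0}} (g : S ⟶ T) :
    IsoUpTo (ZMod 2) D (singMap g) ↔
      (∀ n ≤ D, Function.Surjective ((T0.H n).map g).hom) ∧
        ∀ n < D, Function.Injective ((T0.H n).map g).hom :=
  isoUpTo_ofSSetMap_iff _ _ D

/-- `H_d(f) = 0` in homology iff `H^d(f) = 0` -/
theorem homologyMap_eq_zero_iff_mapH (n : ℕ) :
    SSet.homologyMap f RF2 n = 0 ↔ ((ofSSetMap f).pull (R := ZMod 2)).mapH n = 0 := by
  rw [T0.homologyMap_eq_zero_iff]
  constructor
  · intro h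
    refine LinearMap.ext fun x => ?_
    obtain ⟨⟨c, hc⟩, rfl⟩ := (SS.F (ZMod 2) (ofSSet Y)).cls_surjective n x
    rw [Hom.mapH_cls, LinearMap.zero_apply, CosMod.cls_eq_zero_iff]
    exact (isCobd_iff X _).1 (h c ((d_eq_cobd Y c).symm.trans hc))
  · intro h c hc
    have h1 := LinearMap.congr_fun h ((SS.F (ZMod 2) (ofSSet Y)).cls n ⟨c, (d_eq_cobd Y c).trans hc⟩)
    rw [Hom.mapH_cls, LinearMap.zero_apply, CosMod.cls_eq_zero_iff] at h1
    exact (isCobd_iff X _).2 h1

theorem H_map_eq_zero_iff_mapH (n : ℕ) {S T : TopCat.{0}} (g : S ⟶ T) :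
    (T0.H n).map g = 0 ↔ ((singMap g).pull (R := ZMod 2)).mapH n = 0 :=
  homologyMap_eq_zero_iff_mapH _ _ n

end Vale.Agent.P263.G
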